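import Mathlib
import Vale.Agent.Lib.P249.Main

open MeasureTheory in
/-- Let `1 ≤ p < ∞`, `0 < ε < 1`, `n ≥ 2`, and let `r = ⌈log₂ n⌉` (`Nat.clog 2 n`).  Every `n`-point
subset `x` of any `L_p(μ)` (arbitrary measure space) admits a map `f` into `ℓ_p^K` with
`K = ⌈4 n r (2 r) ^ p log (2 n²) / ε²⌉`, such that all `p`-th powers of distances are preserved up to
the factors `1 ± ε`.  So `K` is nearly linear in `n` for every fixed `p`. -/
theorem Vale.Agent.Results.P249.NearLinearDimension.result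
    (n : ℕ) (hn : 2 ≤ n) (p ε : ℝ) (hp : 1 ≤ p) (hε : 0 < ε) (hε1 : ε < 1)
    {Ω : Type*} [MeasurableSpace Ω] (μ : Measure Ω)
    (x : Fin n → Lp ℝ (ENNReal.ofReal p) μ) (hx : Function.Injective x) :
    ∃ f : Fin n →
        Fin ⌈4 * ((n : ℝ) * (Nat.clog 2 n : ℝ) * (((2 * Nat.clog 2 n : ℕ) : ℝ) ^ p)) *
          Real.log (2 * (n : ℝ) ^ 2) / ε ^ 2⌉₊ → ℝ,
      ∀ i j : Fin n,
        (1 - ε) * ‖x i - x j‖ ^ p ≤ ∑ k, |f i k - f j k| ^ p ∧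
        ∑ k, |f i k - f j k| ^ p ≤ (1 + ε) * ‖x i - x j‖ ^ p :=
  Vale.Agent.Lib.P249.embedding n hn p ε hp hε hε1 μ x hx _ (Nat.le_ceil _)
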